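import Vale.Agent.P095.All.Assembly
import Vale.Agent.P095.All.FixedAssembly
import Vale.Agent.P095.All.GCore
import Vale.Agent.P095.All.FA.Props.Main
import Vale.Agent.P095.All.FA.Exists
import Vale.Agent.P095.All.FA.Absorb
import Vale.Agent.P095.All.Random.Main
import Vale.Agent.P095.All.TraceDim.Final

/-!
# P095: Conjecture A — equivariant `𝒵`-stability of actions of amenable groups
-/

open TopologicalSpace
open scoped MultiplierAlgebra

namespace Vale.Agent.Results.P095.ConjectureA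

open Vale.Agent.P101.KR Vale.Agent.P101.Bridge Vale.Agent.P095.All

/-- For every action of a countable amenable group on a separable nuclear `𝒵`-stable C*-algebra,
unital or not, the relations of `Z_{2,3}` hold with sequences almost fixed by the action, and the
action is cocycle conjugate to its extension to `A ⊗ 𝒵` by the identity. -/
theorem result : ∀ (G : Type) [Group G] [Countable G], IsAmenable G →
    ∀ (A : Type) [NonUnitalCStarAlgebra A] [SeparableSpace A], HasCPAP A →
    ∀ (ω : Ultrafilter ℕ), (ω : Filter ℕ) ≤ Filter.cofinite → HasDropRelations A ω →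
    ∀ (α : G → A ≃⋆ₐ[ℂ] A), (∀ g h a, α (g * h) a = α g (α h a)) →
    HasFixedDropRelations A ω α ∧
    ∀ (D : Type) [CStarAlgebra D], IsZ D →
      (∃ (C : Type) (_ : NonUnitalCStarAlgebra C) (ιA : A →⋆ₙₐ[ℂ] C) (ιD : D →⋆ₐ[ℂ] 𝓜(ℂ, C))
        (γ : G → C ≃⋆ₐ[ℂ] C), IsTensorGen ιA ιD ∧ IsExtension α ιA ιD γ) ∧
      ∀ (C : Type) [NonUnitalCStarAlgebra C] (ιA : A →⋆ₙₐ[ℂ] C) (ιD : D →⋆ₐ[ℂ] 𝓜(ℂ, C))
        (γ : G → C ≃⋆ₐ[ℂ] C), IsTensorGen ιA ιD → IsExtension α ιA ιD γ → CocycleConjugate α γ := by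
  intro G _ _ hAm A _ _ hnuc ω hω hdrop α hα
  refine ⟨fixed_answer_of (TraceDim.traceDimFA_of randomRow_of) faSetting_of gcore_all G hAm A hnuc
    ω hω hdrop α hα, fun D _ hD => ?_⟩
  exact answer_of (TraceDim.traceDimFA_of randomRow_of) faSetting_of fixedMapFA_of absorbFA_of
    existsFA_of gcore_all G hAm A hnuc ω hω hdrop α hα D hD

end Vale.Agent.Results.P095.ConjectureA
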