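import Vale.Agent.P095.Amen.Coin.Elements
import Vale.Agent.P095.Amen.Coin.Scalar
import Vale.Agent.P095.Amen.Compare.Main
import Vale.Agent.P095.Amen.End.Main
import Vale.Agent.P095.Amen.Induction.Inner
import Vale.Agent.P095.Amen.Letters.Main
import Vale.Agent.P095.Amen.Mixture.Main
import Vale.Agent.P095.Amen.Row.Main
import Vale.Agent.P095.Amen.Square.Main
import Vale.Agent.P095.Equiv.Absorb
import Vale.Agent.P101.Bridge.StatementBridge

/-!
# P095: equivariant `𝒵`-stability for actions that are elementary amenable modulo inner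
automorphisms
-/

open TopologicalSpace

namespace Vale.Agent.Results.P095.OuterElementaryAmenable

open Vale.Agent.P101.KR Vale.Agent.P101.Bridge Vale.Agent.P095.Equiv Vale.Agent.P095.Amen

/-- One automorphism creates no characters on its fixed algebra. -/
theorem zcore : ZCoreTarget :=
  have hT := Coin.coinTarget_of compare_of witness_of Mixture.mixture_of Coin.coinScalar
  have hL := Letters.letters_of hT compare_of Mixture.mixture_of Coin.ampScalar
  zcore_of compare_of witness_of rowTarget (Square.square_of compare_of witness_of hL rowTarget)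

/-- An action on a unital separable `𝒵`-stable C*-algebra which is elementary amenable modulo
inner automorphisms (in particular every action of an elementary amenable group, `f` being the
identity) is cocycle conjugate to its extension to `A ⊗ 𝒵` by the identity. -/
theorem result : ∀ (G : Type) [Group G] [Countable G] (Q : Type) [Group Q], IsEA Q →
    ∀ (f : G →* Q), Function.Surjective f →
    ∀ (A : Type) [CStarAlgebra A] [SeparableSpace A] (ω : Ultrafilter ℕ),
      (ω : Filter ℕ) ≤ Filter.cofinite → Seq.HasDropRelations A ω 2 →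
    ∀ (α : G → A ≃⋆ₐ[ℂ] A), (∀ g h a, α (g * h) a = α g (α h a)) →
      (∀ g, f g = 1 → ∃ u : A, star u * u = 1 ∧ u * star u = 1 ∧
        ∀ a, α g a = u * a * star u) →
      ∀ (D : Type) [CStarAlgebra D], IsZ D →
        (∃ (C : Type) (_ : CStarAlgebra C) (ιA : A →⋆ₐ[ℂ] C) (ιD : D →⋆ₐ[ℂ] C)
          (γ : G → C →⋆ₐ[ℂ] C), IsTensorGen ιA ιD ∧ IsExtension α ιA ιD γ) ∧
        ∀ (C : Type) [CStarAlgebra C] (ιA : A →⋆ₐ[ℂ] C) (ιD : D →⋆ₐ[ℂ] C) (γ : G → C →⋆ₐ[ℂ] C),
          IsTensorGen ιA ιD → IsExtension α ιA ιD γ → CocycleConjugate α γ := by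
  intro G _ _ Q _ hQ f hf A _ _ ω hω hdrop α hα hin D _ hD
  have hJ := isJiangSu_of_isZ hD
  have := hJ.separable
  have hno : NoCharacter (CentralAlgebra ω A) :=
    Seq.noCharacter_of ((not_hasCharacter_iff A ω hω).2 hdrop)
  obtain ⟨ψ, hψ⟩ := fixedMap_outerEA zcore hQ f hf A ω hω hno α hα hin D hJ
  refine ⟨?_, fun C _ ιA ιD γ hT hext =>
    absorb_of G A D C ω hω hJ.halfFlip α ψ hψ ιA ιD γ ((isTensorGen_iff ιA ιD).1 hT) hext⟩
  obtain ⟨C, i, ιA, ιD, γ, hT, hext⟩ := existsExtension_of G A D ω α ψ hα hψ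
  exact ⟨C, i, ιA, ιD, γ, (isTensorGen_iff ιA ιD).2 hT, hext⟩

end Vale.Agent.Results.P095.OuterElementaryAmenable
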